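import Vale.Agent.P216.H779E.Lz
import Vale.Agent.P216.Ker923.Kernel

/-! # P216 / H779E : the map to `CP n` defined by an integral two-cocycle -/

set_option linter.all false

open Set Filter
open scoped ComplexConjugate

namespace Vale.Agent.P216.H779E

open Vale.Agent.P216.H391 Vale.Agent.P216.Ker923

variable {M : Type*} [MetricSpace M] [CompactSpace M]

/-- A finite net with a Lipschitz partition of unity. -/
structure Net (M : Type*) [MetricSpace M] (δ : ℝ) where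
  n : ℕ
  v : Fin n → M
  ψ : Fin n → M → ℝ
  S : M → ℝ
  j : M → Fin n
  m : ℝ
  hm : 0 < m
  ψ0 : ∀ l x, 0 ≤ ψ l x
  ψL : ∀ l, Lz (ψ l)
  supp : ∀ l x, ψ l x ≠ 0 → dist x (v l) < δ
  S_eq : ∀ x, S x = ∑ l, ψ l x ^ 2
  S_ge : ∀ x, m ≤ S x
  jmax : ∀ x l, ψ l x ≤ ψ (j x) x

theorem exists_net [Nonempty M] {δ : ℝ} (hδ : 0 < δ) : Nonempty (Net M δ) := by
  obtain ⟨t, -, htf, ht⟩ := (isCompact_univ (X := M)).finite_cover_balls (e := δ / 2) (by positivity)
  have hne : htf.toFinset.Nonempty := by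
    obtain ⟨x⟩ := ‹Nonempty M›
    obtain ⟨y, hy, -⟩ := mem_iUnion₂.1 (ht (mem_univ x))
    exact ⟨y, htf.mem_toFinset.2 hy⟩
  set n := htf.toFinset.card with hn
  let e : Fin n ≃ htf.toFinset := htf.toFinset.equivFin.symm
  have hn0 : 0 < n := Finset.card_pos.2 hne
  haveI : Nonempty (Fin n) := ⟨⟨0, hn0⟩⟩
  let v : Fin n → M := fun i => (e i : M)
  let ψ : Fin n → M → ℝ := fun l x => max 0 (δ - dist x (v l))
  have hcov : ∀ x, ∃ l, δ / 2 ≤ ψ l x := by
    intro x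
    obtain ⟨y, hy, hxy⟩ := mem_iUnion₂.1 (ht (mem_univ x))
    refine ⟨e.symm ⟨y, htf.mem_toFinset.2 hy⟩, ?_⟩
    have : v (e.symm ⟨y, htf.mem_toFinset.2 hy⟩) = y := by simp [v]
    simp only [ψ, this]
    rw [Metric.mem_ball] at hxy
    exact le_max_of_le_right (by linarith)
  have hmax : ∀ x, ∃ l0, ∀ l, ψ l x ≤ ψ l0 x := fun x => Finite.exists_max fun l => ψ l x
  choose j hj using hmax
  refine ⟨{ n := n, v := v, ψ := ψ, S := fun x => ∑ l, ψ l x ^ 2, j := j, m := (δ / 2) ^ 2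
            hm := by positivity, ψ0 := fun l x => le_max_left _ _, ψL := ?_, supp := ?_
            S_eq := fun x => rfl, S_ge := ?_, jmax := hj }⟩
  · intro l
    refine ⟨1, zero_le_one, fun x y => ?_⟩
    simp only [ψ, Real.norm_eq_abs, one_mul]
    have h1 := abs_max_sub_max_le_max (0 : ℝ) (δ - dist x (v l)) 0 (δ - dist y (v l))
    refine h1.trans ?_
    rw [sub_self, abs_zero, max_eq_right (abs_nonneg _)]
    have : δ - dist x (v l) - (δ - dist y (v l)) = dist y (v l) - dist x (v l) := by ring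
    rw [this, dist_comm x y]
    exact abs_dist_sub_le y x (v l)
  · intro l x h
    by_contra h2
    exact h (max_eq_left (by linarith [not_lt.1 h2]))
  · intro x
    obtain ⟨l, hl⟩ := hcov x
    calc (δ / 2) ^ 2 ≤ ψ l x ^ 2 := by gcongr
      _ ≤ _ := Finset.single_le_sum (f := fun l => ψ l x ^ 2) (fun _ _ => by positivity)
        (Finset.mem_univ l)

namespace Net

variable {δ : ℝ} (A : Net M δ)

noncomputable def φ (l : Fin A.n) (x : M) : ℝ := A.ψ l x ^ 2 * (A.S x)⁻¹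

theorem S_pos (x : M) : 0 < A.S x := A.hm.trans_le (A.S_ge x)

theorem S_Lz : Lz A.S := by
  have : A.S = fun x => ∑ l, A.ψ l x * A.ψ l x := by
    funext x; rw [A.S_eq]; simp [sq]
  rw [this]
  exact Lz.sum _ fun l _ => (A.ψL l).mul (A.ψL l)

theorem φ_Lz (l : Fin A.n) : Lz (A.φ l) := by
  have : A.φ l = fun x => A.ψ l x * A.ψ l x * (A.S x)⁻¹ := by
    funext x; simp [φ, sq]
  rw [this]
  exact ((A.ψL l).mul (A.ψL l)).mul (A.S_Lz.inv A.hm A.S_ge)

theorem φ_nonneg (l : Fin A.n) (x : M) : 0 ≤ A.φ l x :=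
  mul_nonneg (by positivity) (inv_nonneg.2 (A.S_pos x).le)

theorem φ_sum (x : M) : ∑ l, A.φ l x = 1 := by
  simp only [φ, ← Finset.sum_mul, ← A.S_eq]
  exact mul_inv_cancel₀ (A.S_pos x).ne'

theorem φ_ne {l : Fin A.n} {x : M} (h : A.φ l x ≠ 0) : A.ψ l x ≠ 0 := by
  rintro h2
  exact h (by simp [φ, h2])

theorem ψ_ne {l : Fin A.n} {x : M} (h : A.ψ l x ≠ 0) : A.φ l x ≠ 0 :=
  mul_ne_zero (pow_ne_zero 2 h) (inv_ne_zero (A.S_pos x).ne')

theorem φ_jmax (x : M) (l : Fin A.n) : A.φ l x ≤ A.φ (A.j x) x := by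
  unfold φ
  have h1 := A.jmax x l
  have h2 := A.ψ0 l x
  have h3 := inv_nonneg.2 (A.S_pos x).le
  gcongr

theorem one_le (x : M) : 1 / (A.n : ℝ) ≤ A.φ (A.j x) x := by
  have h1 : (1 : ℝ) ≤ A.n * A.φ (A.j x) x := by
    calc (1 : ℝ) = ∑ l, A.φ l x := (A.φ_sum x).symm
      _ ≤ ∑ _l : Fin A.n, A.φ (A.j x) x := Finset.sum_le_sum fun l _ => A.φ_jmax x l
      _ = _ := by simp
  have hn : (0 : ℝ) < A.n := by
    have : 0 < A.n := Fin.pos (A.j x)
    exact_mod_cast this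
  rw [div_le_iff₀ hn, mul_comm]
  exact h1

/-- The exponent of the transition function. -/
noncomputable def ex (C : M → M → M → ℤ) (i k : Fin A.n) (x : M) : ℝ :=
  2 * Real.pi * ∑ l, A.φ l x * C (A.v i) (A.v k) (A.v l)

/-- The transition function. -/
noncomputable def g (C : M → M → M → ℤ) (i k : Fin A.n) (x : M) : ℂ :=
  Complex.exp (A.ex C i k x * Complex.I)

theorem norm_g (C : M → M → M → ℤ) (i k : Fin A.n) (x : M) : ‖A.g C i k x‖ = 1 :=
  Complex.norm_exp_ofReal_mul_I _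

theorem ex_Lz (C : M → M → M → ℤ) (i k : Fin A.n) : Lz (A.ex C i k) := by
  refine (Lz.const (2 * Real.pi)).mul (Lz.sum _ fun l _ => ?_)
  exact (A.φ_Lz l).mul (Lz.const _)

theorem g_Lz (C : M → M → M → ℤ) (i k : Fin A.n) : Lz (A.g C i k) := (A.ex_Lz C i k).expI

/-- The cocycle condition on `ε`-small quadruples. -/
def Coc (C : M → M → M → ℤ) (ε : ℝ) : Prop :=
  ∀ x y z w : M, dist x y < ε → dist x z < ε → dist x w < ε → dist y z < ε → dist y w < ε →
    dist z w < ε → C y z w - C x z w + C x y w - C x y z = 0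

theorem g_mul {C : M → M → M → ℤ} {ε : ℝ} (hC : Coc C ε) (hε : 2 * δ ≤ ε) {x : M}
    {i k m : Fin A.n} (hi : A.ψ i x ≠ 0) (hk : A.ψ k x ≠ 0) (hm : A.ψ m x ≠ 0) :
    A.g C i k x * A.g C k m x = A.g C i m x := by
  have hd : ∀ {a b : Fin A.n}, A.ψ a x ≠ 0 → A.ψ b x ≠ 0 → dist (A.v a) (A.v b) < ε := by
    intro a b ha hb
    have h1 := A.supp a x ha
    have h2 := A.supp b x hb
    calc dist (A.v a) (A.v b) ≤ dist x (A.v a) + dist x (A.v b) := dist_triangle_left _ _ _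
      _ < ε := by linarith
  have hs : ∑ l, A.φ l x * C (A.v i) (A.v k) (A.v l) + ∑ l, A.φ l x * C (A.v k) (A.v m) (A.v l) =
      ∑ l, A.φ l x * C (A.v i) (A.v m) (A.v l) + (C (A.v i) (A.v k) (A.v m) : ℝ) := by
    have h1 : (C (A.v i) (A.v k) (A.v m) : ℝ) =
        ∑ l, A.φ l x * (C (A.v i) (A.v k) (A.v m) : ℝ) := by
      rw [← Finset.sum_mul, A.φ_sum, one_mul]
    rw [h1, ← Finset.sum_add_distrib, ← Finset.sum_add_distrib]
    refine Finset.sum_congr rfl fun l _ => ?_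
    by_cases hl : A.φ l x = 0
    · simp [hl]
    have hl' := A.φ_ne hl
    have h2 := hC (A.v i) (A.v k) (A.v m) (A.v l) (hd hi hk) (hd hi hm) (hd hi hl') (hd hk hm)
      (hd hk hl') (hd hm hl')
    have h3 : (C (A.v k) (A.v m) (A.v l) : ℝ) - C (A.v i) (A.v m) (A.v l) +
        C (A.v i) (A.v k) (A.v l) - C (A.v i) (A.v k) (A.v m) = 0 := by exact_mod_cast h2
    rw [← mul_add, ← mul_add]
    congr 1
    linarith
  unfold g
  rw [← Complex.exp_add]
  have h4 : (A.ex C i k x : ℂ) * Complex.I + A.ex C k m x * Complex.I =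
      A.ex C i m x * Complex.I + (C (A.v i) (A.v k) (A.v m) : ℤ) * (2 * Real.pi * Complex.I) := by
    have h5 : A.ex C i k x + A.ex C k m x =
        A.ex C i m x + 2 * Real.pi * (C (A.v i) (A.v k) (A.v m) : ℝ) := by
      unfold ex
      rw [← mul_add, hs]; ring
    have h6 : (A.ex C i k x : ℂ) + A.ex C k m x =
        A.ex C i m x + 2 * Real.pi * (C (A.v i) (A.v k) (A.v m) : ℤ) := by
      exact_mod_cast h5
    rw [← add_mul, h6]; ring
  rw [h4, Complex.exp_add, Complex.exp_int_mul_two_pi_mul_I, mul_one]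

/-- The vector in the trivialisation `k`. -/
noncomputable def vec (C : M → M → M → ℤ) (k : Fin A.n) (x : M) : Fin A.n → ℂ :=
  fun i => A.ψ i x * A.g C i k x

theorem ns_vec (C : M → M → M → ℤ) (k : Fin A.n) (x : M) : ns (A.vec C k x) = A.S x := by
  rw [A.S_eq]
  unfold ns vec
  refine Finset.sum_congr rfl fun i _ => ?_
  rw [norm_mul, A.norm_g, mul_one, Complex.norm_real, Real.norm_eq_abs, sq_abs]

/-- The map to `CP n`. -/
noncomputable def Φ (C : M → M → M → ℤ) (x : M) : CP A.n :=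
  ⟨npr (A.vec C (A.j x) x), npr_mem (by rw [ns_vec]; exact A.S_pos x)⟩

theorem ψ_j_ne (x : M) : A.ψ (A.j x) x ≠ 0 := by
  apply A.φ_ne
  have h := A.one_le x
  have hn : (0 : ℝ) < A.n := by
    have : 0 < A.n := Fin.pos (A.j x)
    exact_mod_cast this
  have : 0 < A.φ (A.j x) x := lt_of_lt_of_le (by positivity) h
  exact this.ne'

theorem Φ_apply {C : M → M → M → ℤ} {ε : ℝ} (hC : Coc C ε) (hε : 2 * δ ≤ ε) (x : M)
    (i k : Fin A.n) : (A.Φ C x).1 i k = A.ψ i x * A.ψ k x * A.g C i k x * (A.S x)⁻¹ := by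
  show npr (A.vec C (A.j x) x) i k = _
  unfold npr
  rw [ns_vec]
  simp only [vec, map_mul, Complex.conj_ofReal]
  by_cases hi : A.ψ i x = 0
  · simp [hi]
  by_cases hk : A.ψ k x = 0
  · simp [hk]
  have h1 := A.g_mul hC hε hi hk (A.ψ_j_ne x)
  have h2 : A.g C k (A.j x) x * conj (A.g C k (A.j x) x) = 1 := by
    rw [Complex.mul_conj, Complex.normSq_eq_norm_sq, A.norm_g]; simp
  have h3 : A.g C i (A.j x) x * conj (A.g C k (A.j x) x) = A.g C i k x := by
    rw [← h1, mul_assoc, h2, mul_one]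
  rw [← h3, Complex.ofReal_inv, div_eq_mul_inv]
  ring

theorem Φ_Lip {C : M → M → M → ℤ} {ε : ℝ} (hC : Coc C ε) (hε : 2 * δ ≤ ε) :
    ∃ L : ℝ, 0 ≤ L ∧ ∀ x y, dist (A.Φ C x) (A.Φ C y) ≤ L * dist x y := by
  have h1 : ∀ i k, Lz (fun x => (A.Φ C x).1 i k) := by
    intro i k
    have : (fun x => (A.Φ C x).1 i k) =
        fun x => (A.ψ i x : ℂ) * A.ψ k x * A.g C i k x * ((A.S x)⁻¹ : ℝ) := by
      funext x
      rw [A.Φ_apply hC hε, Complex.ofReal_inv]
    rw [this]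
    exact (((A.ψL i).ofReal.mul (A.ψL k).ofReal).mul (A.g_Lz C i k)).mul
      (A.S_Lz.inv A.hm A.S_ge).ofReal
  choose L hL h using h1
  refine ⟨∑ i, ∑ k, L i k, Finset.sum_nonneg fun i _ => Finset.sum_nonneg fun k _ => hL i k, ?_⟩
  intro x y
  have hnn : 0 ≤ (∑ i, ∑ k, L i k) * dist x y :=
    mul_nonneg (Finset.sum_nonneg fun i _ => Finset.sum_nonneg fun k _ => hL i k) dist_nonneg
  rw [Subtype.dist_eq, dist_eq_norm, pi_norm_le_iff_of_nonneg hnn]
  intro i
  rw [pi_norm_le_iff_of_nonneg hnn]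
  intro k
  refine (h i k x y).trans ?_
  gcongr
  calc L i k ≤ ∑ k, L i k := Finset.single_le_sum (f := fun k => L i k) (fun k _ => hL i k)
        (Finset.mem_univ k)
    _ ≤ _ := Finset.single_le_sum (f := fun i => ∑ k, L i k)
        (fun i _ => Finset.sum_nonneg fun k _ => hL i k) (Finset.mem_univ i)

end Net

end Vale.Agent.P216.H779E
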