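import Mathlib

/-! # P216 / H779E : a small algebra of Lipschitz functions on a compact metric space -/

set_option linter.all false

open Set Filter
open scoped ComplexConjugate

namespace Vale.Agent.P216.H779E

variable {M : Type*} [MetricSpace M] {F : Type*} [NormedAddCommGroup F]

/-- Lipschitz with some constant. -/
def Lz (f : M → F) : Prop := ∃ L : ℝ, 0 ≤ L ∧ ∀ x y, ‖f x - f y‖ ≤ L * dist x y

theorem Lz.const (a : F) : Lz (fun _ : M => a) := ⟨0, le_rfl, fun x y => by simp⟩

theorem Lz.add {f g : M → F} (hf : Lz f) (hg : Lz g) : Lz (fun x => f x + g x) := by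
  obtain ⟨L, hL, h⟩ := hf
  obtain ⟨K, hK, k⟩ := hg
  refine ⟨L + K, by positivity, fun x y => ?_⟩
  have e : f x + g x - (f y + g y) = (f x - f y) + (g x - g y) := by abel
  rw [e, add_mul]
  exact (norm_add_le _ _).trans (add_le_add (h x y) (k x y))

theorem Lz.sum {ι : Type*} (s : Finset ι) {f : ι → M → F} (hf : ∀ i ∈ s, Lz (f i)) :
    Lz (fun x => ∑ i ∈ s, f i x) := by
  classical
  induction s using Finset.induction_on with
  | empty => simpa using Lz.const (M := M) (0 : F)
  | insert a s ha ih =>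
    simp only [Finset.sum_insert ha]
    exact (hf a (Finset.mem_insert_self _ _)).add
      (ih fun i hi => hf i (Finset.mem_insert_of_mem hi))

theorem Lz.continuous {f : M → F} (hf : Lz f) : Continuous f := by
  obtain ⟨L, hL, h⟩ := hf
  refine (LipschitzWith.of_dist_le_mul (K := ⟨L, hL⟩) fun x y => ?_).continuous
  rw [dist_eq_norm]
  exact h x y

theorem Lz.bdd [CompactSpace M] {f : M → F} (hf : Lz f) : ∃ B : ℝ, 0 ≤ B ∧ ∀ x, ‖f x‖ ≤ B := by
  obtain ⟨B, hB⟩ := isCompact_univ.exists_bound_of_continuousOn hf.continuous.continuousOn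
  exact ⟨max B 0, le_max_right _ _, fun x => (hB x (mem_univ x)).trans (le_max_left _ _)⟩

theorem Lz.mul [CompactSpace M] {A : Type*} [NormedRing A] {f g : M → A} (hf : Lz f)
    (hg : Lz g) : Lz (fun x => f x * g x) := by
  obtain ⟨B, hB, hb⟩ := hf.bdd
  obtain ⟨B', hB', hb'⟩ := hg.bdd
  obtain ⟨L, hL, h⟩ := hf
  obtain ⟨K, hK, k⟩ := hg
  refine ⟨L * B' + B * K, by positivity, fun x y => ?_⟩
  have e : f x * g x - f y * g y = (f x - f y) * g x + f y * (g x - g y) := by noncomm_ring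
  rw [e]
  refine (norm_add_le _ _).trans ?_
  have h1 : ‖(f x - f y) * g x‖ ≤ L * dist x y * B' :=
    (norm_mul_le _ _).trans (mul_le_mul (h x y) (hb' x) (norm_nonneg _) (by positivity))
  have h2 : ‖f y * (g x - g y)‖ ≤ B * (K * dist x y) :=
    (norm_mul_le _ _).trans (mul_le_mul (hb y) (k x y) (norm_nonneg _) hB)
  calc _ ≤ L * dist x y * B' + B * (K * dist x y) := add_le_add h1 h2
    _ = _ := by ring

theorem Lz.ofReal {f : M → ℝ} (hf : Lz f) : Lz (fun x => (f x : ℂ)) := by
  obtain ⟨L, hL, h⟩ := hf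
  refine ⟨L, hL, fun x y => ?_⟩
  rw [← Complex.ofReal_sub, Complex.norm_real]
  exact h x y

theorem Lz.inv {f : M → ℝ} (hf : Lz f) {m : ℝ} (hm : 0 < m) (h : ∀ x, m ≤ f x) :
    Lz (fun x => (f x)⁻¹) := by
  obtain ⟨L, hL, hl⟩ := hf
  refine ⟨L / m ^ 2, by positivity, fun x y => ?_⟩
  have hx : 0 < f x := hm.trans_le (h x)
  have hy : 0 < f y := hm.trans_le (h y)
  have e : (f x)⁻¹ - (f y)⁻¹ = (f y - f x) / (f x * f y) := by
    field_simp
  rw [e, norm_div, Real.norm_of_nonneg (by positivity : 0 ≤ f x * f y), norm_sub_rev,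
    div_mul_eq_mul_div]
  have h1 : m ^ 2 ≤ f x * f y := by
    rw [sq]; exact mul_le_mul (h x) (h y) hm.le hx.le
  have h2 := hl x y
  have h3 : 0 ≤ L * dist x y := by positivity
  gcongr

theorem Lz.expI {f : M → ℝ} (hf : Lz f) : Lz (fun x => Complex.exp (f x * Complex.I)) := by
  obtain ⟨L, hL, h⟩ := hf
  refine ⟨L, hL, fun x y => ?_⟩
  have e : Complex.exp (f x * Complex.I) - Complex.exp (f y * Complex.I) =
      Complex.exp (f y * Complex.I) * (Complex.exp (Complex.I * ((f x - f y : ℝ) : ℂ)) - 1) := by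
    rw [mul_sub, ← Complex.exp_add, mul_one]
    congr 2
    push_cast; ring
  rw [e, norm_mul, Complex.norm_exp_ofReal_mul_I, one_mul]
  refine (Real.norm_exp_I_mul_ofReal_sub_one_le).trans ?_
  exact h x y

end Vale.Agent.P216.H779E
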