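import Vale.Agent.P216.H779E.Cocyc

/-! # P216 / H779E : the pulled back kernel in terms of the cocycle -/

set_option linter.all false

open Set Filter
open scoped ComplexConjugate

namespace Vale.Agent.P216.H779E

open Vale.Agent.P216.H391 Vale.Agent.P216.Ker923

/-- Unit vectors of the same line differ by a phase. -/
theorem uv_phase {N : ℕ} (P : CP N) (u : Fin N → ℂ) (hu : ns u = 1) (hP : P.1 = prj u) :
    ‖ip u (uv P)‖ = 1 ∧ uv P = fun i => ip u (uv P) * u i := by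
  have h1 : ∀ i, uv P i = ip u (uv P) * u i := by
    intro i
    have h2 : ∀ k, uv P i * conj (uv P k) = u i * conj (u k) := by
      intro k
      have h3 : prj (uv P) i k = prj u i k := by rw [prj_uv, hP]
      exact h3
    have h4 : uv P i * ((ns (uv P) : ℝ) : ℂ) = u i * ip u (uv P) := by
      rw [← ip_self]
      unfold ip
      rw [Finset.mul_sum, Finset.mul_sum]
      refine Finset.sum_congr rfl fun k _ => ?_
      rw [← mul_assoc, ← mul_assoc, h2]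
    rw [ns_uv, Complex.ofReal_one, mul_one] at h4
    rw [h4, mul_comm]
  refine ⟨?_, funext h1⟩
  have h2 : ns (uv P) = ‖ip u (uv P)‖ ^ 2 * ns u := by
    rw [← ns_smul]
    congr 1
    exact funext h1
  rw [ns_uv, hu, mul_one] at h2
  have h3 := norm_nonneg (ip u (uv P))
  nlinarith

theorem ip_mul_mul {N : ℕ} (a b : ℂ) (u w : Fin N → ℂ) :
    ip (fun i => a * u i) (fun i => b * w i) = conj a * b * ip u w := by
  unfold ip
  rw [Finset.mul_sum]
  refine Finset.sum_congr rfl fun k _ => ?_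
  rw [map_mul]; ring

/-- `phs` near a unimodular number. -/
theorem norm_phs_sub_le {z e : ℂ} (he : ‖e‖ = 1) : ‖phs z - e‖ ≤ 2 * ‖z - e‖ := by
  by_cases hz : z = 0
  · subst hz
    rw [phs_zero, zero_sub, norm_neg, he, mul_one]
    refine (norm_sub_le _ _).trans ?_
    rw [norm_one, he]; norm_num
  · have h1 : ‖phs z - z‖ ≤ ‖z - e‖ := by
      have h2 : phs z - z = phs z * ((1 - ‖z‖ : ℝ) : ℂ) := by
        have := norm_mul_phs z
        push_cast
        linear_combination this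
      rw [h2, norm_mul, norm_phs, one_mul, Complex.norm_real, Real.norm_eq_abs, ← he,
        abs_sub_comm]
      exact abs_norm_sub_norm_le z e
    have h3 : phs z - e = (phs z - z) + (z - e) := by ring
    rw [h3]
    refine (norm_add_le _ _).trans ?_
    linarith

theorem phs_real_mul {r : ℝ} (hr : 0 < r) (z : ℂ) : phs ((r : ℂ) * z) = phs z := by
  by_cases hz : z = 0
  · simp [hz]
  · rw [phs_mul (by exact_mod_cast hr.ne') hz, phs_ofReal hr, one_mul]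

theorem phs_unit_mul {a : ℂ} (ha : ‖a‖ = 1) {z : ℂ} (hz : z ≠ 0) : phs (a * z) = a * phs z := by
  have ha0 : a ≠ 0 := by
    rintro rfl
    simp at ha
  rw [phs_mul ha0 hz, phs_of_ne ha0, ha]
  simp

variable {M : Type*} [MetricSpace M] [CompactSpace M]

namespace Net

variable {δ : ℝ} (A : Net M δ)

/-- The unit vector of `Φ x` in the trivialisation `j x`. -/
noncomputable def uu (C : M → M → M → ℤ) (x : M) : Fin A.n → ℂ :=
  fun i => (((√(A.S x))⁻¹ : ℝ) : ℂ) * A.vec C (A.j x) x i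

theorem sqrt_pos (x : M) : 0 < √(A.S x) := Real.sqrt_pos.2 (A.S_pos x)

theorem ns_uu (C : M → M → M → ℤ) (x : M) : ns (A.uu C x) = 1 := by
  have h : A.uu C x = (((√(A.S x))⁻¹ : ℝ) : ℂ) • A.vec C (A.j x) x := by
    funext i; simp [uu]
  have hs := A.sqrt_pos x
  have h2 : √(A.S x) ^ 2 = A.S x := Real.sq_sqrt (A.S_pos x).le
  rw [h, ns_smul, ns_vec, Complex.norm_real, Real.norm_of_nonneg (by positivity), inv_pow, h2]
  exact inv_mul_cancel₀ (A.S_pos x).ne'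

theorem prj_uu (C : M → M → M → ℤ) (x : M) : (A.Φ C x).1 = prj (A.uu C x) := by
  have h2 : √(A.S x) ^ 2 = A.S x := Real.sq_sqrt (A.S_pos x).le
  funext i k
  show npr (A.vec C (A.j x) x) i k = _
  unfold npr prj uu
  rw [ns_vec]
  simp only [map_mul, Complex.conj_ofReal]
  have h3 : ((√(A.S x) : ℝ) : ℂ) ^ 2 = ((A.S x : ℝ) : ℂ) := by exact_mod_cast h2
  have h4 : ((√(A.S x) : ℝ) : ℂ) ≠ 0 := by exact_mod_cast (A.sqrt_pos x).ne'
  rw [← h3, Complex.ofReal_inv]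
  field_simp

/-- The gauge. -/
noncomputable def γ (C : M → M → M → ℤ) (x : M) : ℂ := ip (A.uu C x) (uv (A.Φ C x))

theorem norm_γ (C : M → M → M → ℤ) (x : M) : ‖A.γ C x‖ = 1 :=
  (uv_phase _ _ (A.ns_uu C x) (A.prj_uu C x)).1

theorem uv_eq (C : M → M → M → ℤ) (x : M) : uv (A.Φ C x) = fun i => A.γ C x * A.uu C x i :=
  (uv_phase _ _ (A.ns_uu C x) (A.prj_uu C x)).2

/-- The comparison number. -/
noncomputable def zz (C : M → M → M → ℤ) (k m : Fin A.n) (x y : M) : ℂ :=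
  ∑ i, ((A.ψ i x * (A.S x)⁻¹ : ℝ) : ℂ) * conj (A.g C i k x) * (A.ψ i y * A.g C i m y)

theorem ip_uu (C : M → M → M → ℤ) (x y : M) :
    ip (A.uu C x) (A.uu C y) =
      ((√(A.S x) * (√(A.S y))⁻¹ : ℝ) : ℂ) * A.zz C (A.j x) (A.j y) x y := by
  unfold ip uu zz vec
  rw [Finset.mul_sum]
  refine Finset.sum_congr rfl fun i _ => ?_
  have h2 : √(A.S x) ^ 2 = A.S x := Real.sq_sqrt (A.S_pos x).le
  have h3 : ((√(A.S x) : ℝ) : ℂ) ^ 2 = ((A.S x : ℝ) : ℂ) := by exact_mod_cast h2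
  have h4 : ((√(A.S x) : ℝ) : ℂ) ≠ 0 := by exact_mod_cast (A.sqrt_pos x).ne'
  simp only [map_mul, Complex.conj_ofReal]
  simp only [Complex.ofReal_mul, Complex.ofReal_inv]
  rw [← h3]
  field_simp

theorem zz_self {C : M → M → M → ℤ} {ε : ℝ} (hC : Coc C ε) (hε : 2 * δ ≤ ε) {x : M}
    {k m : Fin A.n} (hk : A.ψ k x ≠ 0) (hm : A.ψ m x ≠ 0) : A.zz C k m x x = A.g C k m x := by
  have h1 : ∀ i, ((A.ψ i x * (A.S x)⁻¹ : ℝ) : ℂ) * conj (A.g C i k x) *
      (A.ψ i x * A.g C i m x) = (A.φ i x : ℂ) * A.g C k m x := by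
    intro i
    by_cases hi : A.ψ i x = 0
    · simp [hi, φ]
    · have h2 := A.g_mul hC hε hi hk hm
      have h3 : A.g C i k x * conj (A.g C i k x) = 1 := by
        rw [Complex.mul_conj, Complex.normSq_eq_norm_sq, A.norm_g]; simp
      rw [← h2]
      simp only [φ, Complex.ofReal_mul, Complex.ofReal_inv, Complex.ofReal_pow]
      linear_combination ((A.ψ i x : ℂ) ^ 2 * (A.S x : ℂ)⁻¹ * A.g C k m x) * h3
  unfold zz
  rw [Finset.sum_congr rfl fun i _ => h1 i, ← Finset.sum_mul]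
  have h2 : (∑ i, (A.φ i x : ℂ)) = 1 := by exact_mod_cast A.φ_sum x
  rw [h2, one_mul]

theorem zz_Lip (C : M → M → M → ℤ) : ∃ K : ℝ, 0 ≤ K ∧ ∀ k m x y,
    ‖A.zz C k m x y - A.zz C k m x x‖ ≤ K * dist x y := by
  have h1 : ∀ i m, Lz (fun y => (A.ψ i y : ℂ) * A.g C i m y) := fun i m =>
    (A.ψL i).ofReal.mul (A.g_Lz C i m)
  choose L hL h using h1
  have h2 : ∀ i, Lz (fun x => A.ψ i x * (A.S x)⁻¹) := fun i =>
    (A.ψL i).mul (A.S_Lz.inv A.hm A.S_ge)
  have h3 : ∀ i, ∃ B : ℝ, 0 ≤ B ∧ ∀ x, ‖A.ψ i x * (A.S x)⁻¹‖ ≤ B := fun i => (h2 i).bdd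
  choose B hB hb using h3
  refine ⟨∑ i, B i * ∑ m, L i m, Finset.sum_nonneg fun i _ =>
    mul_nonneg (hB i) (Finset.sum_nonneg fun m _ => hL i m), fun k m x y => ?_⟩
  unfold zz
  rw [← Finset.sum_sub_distrib, Finset.sum_mul]
  refine norm_sum_le_of_le _ fun i _ => ?_
  rw [← mul_sub, norm_mul, norm_mul, RCLike.norm_conj, A.norm_g, mul_one, Complex.norm_real]
  have h4 := h i m y x
  rw [dist_comm] at h4
  have h5 : L i m ≤ ∑ m, L i m := Finset.single_le_sum (f := fun m => L i m)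
    (fun m _ => hL i m) (Finset.mem_univ m)
  have h6 := hb i x
  have h7 : (0 : ℝ) ≤ dist x y := dist_nonneg
  have h8 := hL i m
  have h9 := hB i
  calc _ ≤ B i * (L i m * dist x y) := mul_le_mul h6 h4 (norm_nonneg _) h9
    _ ≤ B i * ((∑ m, L i m) * dist x y) := by gcongr
    _ = _ := by ring

/-- The main estimate. -/
theorem kap_near {C : M → M → M → ℤ} {ε : ℝ} (hC : Coc C ε) (hε : 2 * δ ≤ ε) :
    ∃ K δ' : ℝ, 0 ≤ K ∧ 0 < δ' ∧ ∀ x y, dist x y < δ' →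
      ‖Ker923.kap (A.Φ C x) (A.Φ C y) - conj (A.γ C x) * A.γ C y * A.g C (A.j x) (A.j y) x‖ ≤
        K * dist x y := by
  obtain ⟨K, hK, hKz⟩ := A.zz_Lip C
  choose Lφ hLφ hφ using A.φ_Lz
  by_cases hemp : Nonempty M
  swap
  · exact ⟨0, 1, le_rfl, one_pos, fun x => (hemp ⟨x⟩).elim⟩
  obtain ⟨x0⟩ := hemp
  have hn : (0 : ℝ) < A.n := by
    have : 0 < A.n := Fin.pos (A.j x0)
    exact_mod_cast this
  set Ls : ℝ := ∑ l, Lφ l with hLs
  have hLs0 : 0 ≤ Ls := Finset.sum_nonneg fun l _ => hLφ l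
  refine ⟨2 * K, min (1 / (A.n * (Ls + 1))) (1 / (2 * (K + 1))), by positivity, by positivity,
    fun x y hxy => ?_⟩
  have hd0 : (0 : ℝ) ≤ dist x y := dist_nonneg
  have hxy1 : dist x y < 1 / (A.n * (Ls + 1)) := hxy.trans_le (min_le_left _ _)
  have hxy2 : dist x y < 1 / (2 * (K + 1)) := hxy.trans_le (min_le_right _ _)
  -- `ψ (j y) x ≠ 0`
  have hψ : A.ψ (A.j y) x ≠ 0 := by
    apply A.φ_ne
    have h1 := A.one_le y
    have h2 := hφ (A.j y) x y
    rw [Real.norm_eq_abs] at h2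
    have h3 : Lφ (A.j y) ≤ Ls := Finset.single_le_sum (f := Lφ) (fun l _ => hLφ l)
      (Finset.mem_univ _)
    have h4 : Lφ (A.j y) * dist x y < 1 / A.n := by
      calc Lφ (A.j y) * dist x y ≤ (Ls + 1) * dist x y := by gcongr; linarith
        _ < (Ls + 1) * (1 / (A.n * (Ls + 1))) := by gcongr
        _ = 1 / A.n := by field_simp
    have h5 := (abs_le.1 h2).1
    have : 0 < A.φ (A.j y) x := by linarith
    exact this.ne'
  have hz1 := A.zz_self hC hε (A.ψ_j_ne x) hψ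
  have hz2 := hKz (A.j x) (A.j y) x y
  rw [hz1] at hz2
  set z := A.zz C (A.j x) (A.j y) x y with hz
  set e := A.g C (A.j x) (A.j y) x with he
  have he1 : ‖e‖ = 1 := A.norm_g C _ _ x
  have hz0 : z ≠ 0 := by
    intro h0
    rw [h0, zero_sub, norm_neg, he1] at hz2
    have : K * dist x y < 1 := by
      calc K * dist x y ≤ (K + 1) * dist x y := by gcongr; linarith
        _ ≤ (K + 1) * (1 / (2 * (K + 1))) := by gcongr
        _ = 1 / 2 := by field_simp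
        _ < 1 := by norm_num
    linarith
  have hkap : Ker923.kap (A.Φ C x) (A.Φ C y) = conj (A.γ C x) * A.γ C y * phs z := by
    unfold Ker923.kap
    rw [A.uv_eq C x, A.uv_eq C y, ip_mul_mul, A.ip_uu]
    have h1 : ‖conj (A.γ C x) * A.γ C y‖ = 1 := by
      rw [norm_mul, RCLike.norm_conj, A.norm_γ, A.norm_γ, mul_one]
    have h2 : 0 < √(A.S x) * (√(A.S y))⁻¹ :=
      mul_pos (A.sqrt_pos x) (inv_pos.2 (A.sqrt_pos y))
    rw [phs_unit_mul h1 (mul_ne_zero (by exact_mod_cast h2.ne') hz0), phs_real_mul h2]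
  rw [hkap, ← mul_sub, norm_mul, norm_mul, RCLike.norm_conj, A.norm_γ, A.norm_γ, one_mul, one_mul]
  calc ‖phs z - e‖ ≤ 2 * ‖z - e‖ := norm_phs_sub_le he1
    _ ≤ 2 * (K * dist x y) := by gcongr
    _ = 2 * K * dist x y := by ring

end Net

/-- **[E2 PHI]** -/
theorem phi_kernel [Nonempty M] (C : M → M → M → ℤ) {ε : ℝ} (hε : 0 < ε)
    (hC : ∀ x y z w : M, dist x y < ε → dist x z < ε → dist x w < ε → dist y z < ε →
      dist y w < ε → dist z w < ε → C y z w - C x z w + C x y w - C x y z = 0)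
    {δ : ℝ} (hδ : 0 < δ) :
    ∃ (n : ℕ) (v : Fin n → M) (φ : Fin n → M → ℝ) (j : M → Fin n) (Φ : M → CP n) (γ : M → ℂ)
      (L : ℝ), 0 < L ∧ (∀ x y, dist (Φ x) (Φ y) ≤ L * dist x y) ∧ (∀ l x, 0 ≤ φ l x) ∧
      (∀ x, ∑ l, φ l x = 1) ∧ (∀ l x, φ l x ≠ 0 → dist x (v l) < δ) ∧
      (∀ l x y, |φ l x - φ l y| ≤ L * dist x y) ∧ (∀ x, 1 / (n : ℝ) ≤ φ (j x) x) ∧
      (∀ x, dist x (v (j x)) < δ) ∧
      (∀ x, ‖γ x‖ = 1) ∧ ∃ δ' : ℝ, 0 < δ' ∧ ∀ x y, dist x y < δ' →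
        ‖Ker923.kap (Φ x) (Φ y) - conj (γ x) * γ y *
          Complex.exp (((2 * Real.pi * ∑ l, φ l x * C (v (j x)) (v (j y)) (v l) : ℝ) : ℂ) *
            Complex.I)‖ ≤ L * dist x y := by
  obtain ⟨A⟩ := exists_net (M := M) (δ := min δ (ε / 2)) (by positivity)
  have hε2 : 2 * min δ (ε / 2) ≤ ε := by
    have := min_le_right δ (ε / 2)
    linarith
  have hC' : Net.Coc C ε := hC
  obtain ⟨L, hL, hLΦ⟩ := A.Φ_Lip hC' hε2
  choose Lφ hLφ hφ using A.φ_Lz
  obtain ⟨K, δ', hK, hδ', hk⟩ := A.kap_near hC' hε2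
  have hLs0 : 0 ≤ ∑ l, Lφ l := Finset.sum_nonneg fun l _ => hLφ l
  refine ⟨A.n, A.v, A.φ, A.j, A.Φ C, A.γ C, L + ∑ l, Lφ l + K + 1, by positivity, ?_,
    A.φ_nonneg, A.φ_sum, ?_, ?_, A.one_le, ?_, A.norm_γ C, δ', hδ', ?_⟩
  · intro x y
    refine (hLΦ x y).trans ?_
    have : (0 : ℝ) ≤ dist x y := dist_nonneg
    gcongr
    linarith
  · intro l x h
    exact (A.supp l x (A.φ_ne h)).trans_le (min_le_left _ _)
  · intro l x y
    have h1 := hφ l x y
    rw [Real.norm_eq_abs] at h1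
    refine h1.trans ?_
    have h3 : Lφ l ≤ ∑ l, Lφ l := Finset.single_le_sum (f := Lφ) (fun l _ => hLφ l)
      (Finset.mem_univ _)
    have : (0 : ℝ) ≤ dist x y := dist_nonneg
    gcongr
    linarith
  · intro x
    exact (A.supp _ x (A.ψ_j_ne x)).trans_le (min_le_left _ _)
  · intro x y hxy
    refine (hk x y hxy).trans ?_
    have : (0 : ℝ) ≤ dist x y := dist_nonneg
    gcongr
    linarith

end Vale.Agent.P216.H779E
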